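import Mathlib.Algebra.Order.Chebyshev
import Mathlib.Analysis.SpecialFunctions.Integrals.Basic
import Mathlib.Analysis.SpecialFunctions.Trigonometric.Bounds
import Mathlib.MeasureTheory.Integral.IntervalIntegral.Periodic

/-! # N097Y : the perimeter of the longest inscribed polygon, to second order -/

namespace Vale.Agent.N097Y

open Real Set Filter Topology intervalIntegral
open MeasureTheory (volume)
open scoped ComplexConjugate

/-- a closed convex curve `z`, parametrised by the normal angle, with radius of curvature `g ^ 3` -/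
structure Cv (g : ℝ → ℝ) (z : ℝ → ℂ) : Prop where
  cont : Continuous g
  pos : ∀ x, 0 < g x
  per : Function.Periodic g (2 * π)
  der : ∀ x, HasDerivAt z ((g x ^ 3 : ℝ) * (Complex.I * Complex.exp (x * Complex.I))) x

/-- inscribed polygons with `N` sides which turn once -/
def Cf (N : ℕ) (x : ℤ → ℝ) : Prop :=
  (∀ j, x (j + N) = x j + 2 * π) ∧ ∀ j, x j ≤ x (j + 1) ∧ x (j + 1) ≤ x j + 2 * π

/-- the perimeter -/
noncomputable def len (z : ℝ → ℂ) (N : ℕ) (x : ℤ → ℝ) : ℝ :=
  ∑ j ∈ Finset.range N, ‖z (x (j + 1)) - z (x j)‖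

/-- arc minus chord -/
noncomputable def df (g : ℝ → ℝ) (z : ℝ → ℂ) (a b : ℝ) : ℝ := (∫ x in a..b, g x ^ 3) - ‖z b - z a‖

variable {g : ℝ → ℝ} {z : ℝ → ℂ}

namespace Cv

theorem proj (C : Cv g z) (θ a b : ℝ) : ∫ x in a..b, g x ^ 3 * cos (x - θ) =
    (conj (Complex.I * Complex.exp (θ * Complex.I)) * (z b - z a)).re := by
  have c := C.cont
  have := integral_eq_sub_of_hasDerivAt (a := a) (b := b)
    (f := fun x => (conj (Complex.I * Complex.exp (θ * Complex.I)) * z x).re)
    (f' := fun x => g x ^ 3 * cos (x - θ)) (fun x _ => ?_)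
    (by apply Continuous.intervalIntegrable; fun_prop)
  · rw [this, mul_sub, Complex.sub_re]
  have d := Complex.reCLM.hasFDerivAt.comp_hasDerivAt x
    ((C.der x).const_mul (conj (Complex.I * Complex.exp (θ * Complex.I))))
  refine d.congr_deriv ?_
  rw [Complex.reCLM_apply, mul_left_comm, Complex.re_ofReal_mul, cos_sub]
  congr 1
  simp [Complex.exp_ofReal_mul_I_re, Complex.exp_ofReal_mul_I_im]
  ring

theorem nu (θ : ℝ) : ‖Complex.I * Complex.exp (θ * Complex.I)‖ = 1 := by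
  rw [norm_mul, Complex.norm_I, Complex.norm_exp_ofReal_mul_I, one_mul]

theorem df_le (C : Cv g z) (θ a b : ℝ) :
    df g z a b ≤ ∫ x in a..b, g x ^ 3 * (1 - cos (x - θ)) := by
  have c := C.cont
  simp only [mul_sub, mul_one]
  rw [integral_sub (by apply Continuous.intervalIntegrable; fun_prop)
    (by apply Continuous.intervalIntegrable; fun_prop), C.proj, df]
  have := Complex.re_le_norm (conj (Complex.I * Complex.exp (θ * Complex.I)) * (z b - z a))
  rw [norm_mul, Complex.norm_conj, nu, one_mul] at this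
  linarith

theorem df_eq (C : Cv g z) (a b : ℝ) :
    ∃ θ, df g z a b = ∫ x in a..b, g x ^ 3 * (1 - cos (x - θ)) := by
  have c := C.cont
  refine ⟨Complex.arg (-Complex.I * (z b - z a)), ?_⟩
  simp only [mul_sub, mul_one]
  rw [integral_sub (by apply Continuous.intervalIntegrable; fun_prop)
    (by apply Continuous.intervalIntegrable; fun_prop), C.proj, df, ← mul_sub]
  congr 1
  set w := z b - z a
  have e := Complex.norm_mul_exp_arg_mul_I (-Complex.I * w)
  set u := Complex.exp (Complex.arg (-Complex.I * w) * Complex.I) with hu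
  have n : ‖u‖ = 1 := Complex.norm_exp_ofReal_mul_I _
  rw [norm_mul, norm_neg, Complex.norm_I, one_mul] at e
  have e2 : conj (Complex.I * u) * w = (‖w‖ : ℝ) := by
    rw [map_mul, Complex.conj_I, mul_right_comm, ← e, mul_assoc, Complex.mul_conj,
      Complex.normSq_eq_norm_sq, n]
    simp
  rw [e2, Complex.ofReal_re]

theorem df_up (C : Cv g z) {a b M : ℝ} (ab : a ≤ b) (hM : ∀ x ∈ Icc a b, g x ≤ M) :
    df g z a b ≤ M ^ 3 * (b - a) ^ 3 / 24 := by
  have c := C.cont
  refine (C.df_le ((a + b) / 2) a b).trans ((integral_mono_on (μ := volume)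
    (g := fun x => M ^ 3 / 2 * (x - (a + b) / 2) ^ 2) ab
    (by apply Continuous.intervalIntegrable; fun_prop)
    (by apply Continuous.intervalIntegrable; fun_prop) fun x hx => ?_).trans_eq ?_)
  · have h1 := pow_le_pow_left₀ (C.pos x).le (hM x hx) 3
    have h2 := one_sub_sq_div_two_le_cos (x := x - (a + b) / 2)
    have h3 := cos_le_one (x - (a + b) / 2)
    have h4 := pow_pos (C.pos x) 3
    nlinarith [mul_le_mul h1 (show 1 - cos (x - (a + b) / 2) ≤ (x - (a + b) / 2) ^ 2 / 2 by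
      linarith) (by linarith) (by linarith)]
  · rw [integral_const_mul, integral_comp_sub_right (fun x => x ^ 2), integral_pow]
    ring

theorem df_lo (C : Cv g z) {a b m : ℝ} (ab : a ≤ b) (ba : b ≤ a + 2 * π) (m0 : 0 ≤ m)
    (hm : ∀ x ∈ Icc a b, m ≤ g x) : m ^ 3 * ((b - a) - 2 * sin ((b - a) / 2)) ≤ df g z a b := by
  have c := C.cont
  obtain ⟨θ, e⟩ := C.df_eq a b
  rw [e]
  refine le_trans ?_ (integral_mono_on (μ := volume) (f := fun x => m ^ 3 * (1 - cos (x - θ))) ab
    (by apply Continuous.intervalIntegrable; fun_prop)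
    (by apply Continuous.intervalIntegrable; fun_prop) fun x hx =>
      mul_le_mul_of_nonneg_right (pow_le_pow_left₀ m0 (hm x hx) 3)
        (sub_nonneg.2 (cos_le_one _)))
  rw [integral_const_mul, integral_sub (by simp) (by apply Continuous.intervalIntegrable; fun_prop),
    integral_comp_sub_right (fun x => cos x), integral_cos, sin_sub_sin,
    show (b - θ - (a - θ)) / 2 = (b - a) / 2 by ring]
  refine mul_le_mul_of_nonneg_left ?_ (pow_nonneg m0 3)
  have s : 0 ≤ sin ((b - a) / 2) := sin_nonneg_of_nonneg_of_le_pi (by linarith) (by linarith)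
  have := mul_le_mul_of_nonneg_left (cos_le_one ((b - θ + (a - θ)) / 2)) s
  simp only [integral_const, smul_eq_mul, mul_one]
  linarith

theorem sn {d : ℝ} (d0 : 0 ≤ d) (d1 : d ≤ 1) : (1 - d) * d ^ 3 / 24 ≤ d - 2 * sin (d / 2) := by
  have := (abs_le.1 (sin_bound (x := d / 2) (by rw [abs_of_nonneg (by linarith)]; linarith))).2
  rw [abs_of_nonneg (by linarith)] at this
  have h4 : 0 ≤ d ^ 4 := by positivity
  nlinarith [mul_nonneg h4 (sub_nonneg.2 d1)]

theorem sm {d e : ℝ} (h : e ≤ d) : e - 2 * sin (e / 2) ≤ d - 2 * sin (d / 2) := by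
  have := (le_abs_self _).trans (abs_sin_sub_sin_le (d / 2) (e / 2))
  rw [abs_of_nonneg (by linarith)] at this
  linarith

theorem lb (C : Cv g z) : ∃ r, 0 < r ∧ ∀ x, r ≤ g x := by
  obtain ⟨y, ⟨x, rfl⟩, k⟩ := (C.per.compact_of_continuous two_pi_pos.ne' C.cont).exists_isLeast
    (range_nonempty g)
  exact ⟨g x, C.pos x, fun u => k ⟨u, rfl⟩⟩

theorem uc (C : Cv g z) {k : ℝ} (k1 : 1 < k) : ∃ η, 0 < η ∧ η ≤ 1 ∧ ∀ a u, a ≤ u → u ≤ a + η →
    g u ≤ k * g a ∧ g a ≤ k * g u := by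
  obtain ⟨r, r0, hr⟩ := C.lb
  obtain ⟨δ, δ0, hδ⟩ := Metric.uniformContinuousOn_iff.1
    ((isCompact_Icc (a := (0 : ℝ)) (b := 2 * π + 1)).uniformContinuousOn_of_continuous
      C.cont.continuousOn) ((k - 1) * r) (mul_pos (by linarith) r0)
  refine ⟨min (δ / 2) 1, by positivity, min_le_right _ _, fun a u h1 h2 => ?_⟩
  have h3 := min_le_left (δ / 2) 1
  have h4 := min_le_right (δ / 2) 1
  obtain ⟨b1, b2⟩ := sub_toIcoDiv_zsmul_mem_Ico two_pi_pos 0 a
  set t := toIcoDiv two_pi_pos 0 a • (2 * π) with ht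
  have := hδ (u - t) ⟨by linarith, by linarith⟩ (a - t) ⟨b1, by linarith⟩
    (by rw [Real.dist_eq, abs_of_nonneg (by linarith)]; linarith)
  rw [ht, C.per.sub_zsmul_eq, C.per.sub_zsmul_eq, Real.dist_eq, abs_lt] at this
  have p1 := mul_le_mul_of_nonneg_left (hr a) (sub_nonneg.2 k1.le)
  have p2 := mul_le_mul_of_nonneg_left (hr u) (sub_nonneg.2 k1.le)
  constructor <;> linarith [this.1, this.2]

theorem wt_ge (C : Cv g z) {a b m : ℝ} (ab : a ≤ b) (hm : ∀ x ∈ Icc a b, m ≤ g x) :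
    m * (b - a) ≤ ∫ x in a..b, g x := by
  have := integral_mono_on (μ := volume) (f := fun _ => m) ab (by simp)
    (C.cont.intervalIntegrable _ _) hm
  simpa [mul_comm] using this

theorem wt_le (C : Cv g z) {a b m : ℝ} (ab : a ≤ b) (hm : ∀ x ∈ Icc a b, g x ≤ m) :
    ∫ x in a..b, g x ≤ m * (b - a) := by
  have := integral_mono_on (μ := volume) (g := fun _ => m) ab (C.cont.intervalIntegrable _ _)
    (by simp) hm
  simpa [mul_comm] using this

/-- short arcs -/
theorem loc (C : Cv g z) {k : ℝ} (k1 : 1 < k) : ∃ η, 0 < η ∧ η ≤ 1 ∧ ∀ a b, a ≤ b → b ≤ a + η →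
    df g z a b ≤ k ^ 6 * (∫ x in a..b, g x) ^ 3 / 24 ∧
      (∫ x in a..b, g x) ^ 3 / 24 ≤ k ^ 7 * df g z a b := by
  obtain ⟨η, η0, η1, hη⟩ := C.uc k1
  have k0 : 0 < k := by linarith
  have q : 0 < 1 - 1 / k := by rw [sub_pos, div_lt_one k0]; exact k1
  refine ⟨min η (1 - 1 / k), by positivity, (min_le_left _ _).trans η1, fun a b ab h => ?_⟩
  have h1 := min_le_left η (1 - 1 / k)
  have h2 := min_le_right η (1 - 1 / k)
  have u : ∀ x ∈ Icc a b, g x ≤ k * g a := fun x hx => (hη a x hx.1 (by linarith [hx.2])).1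
  have l : ∀ x ∈ Icc a b, g a / k ≤ g x := fun x hx =>
    (div_le_iff₀' k0).2 (hη a x hx.1 (by linarith [hx.2])).2
  have G0 := C.pos a
  have d0 : 0 ≤ b - a := by linarith
  have w1 := pow_le_pow_left₀ (by positivity) (C.wt_ge ab l) 3
  have w2 := pow_le_pow_left₀ (le_trans (by positivity) (C.wt_ge ab l)) (C.wt_le ab u) 3
  have f1 := C.df_up ab u
  have f2 := C.df_lo ab (by linarith [two_le_pi]) (by positivity) l
  have s := sn d0 (by linarith)
  set G := g a
  set d := b - a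
  set w := (∫ x in a..b, g x) ^ 3
  constructor
  · refine f1.trans ?_
    have : (k * G) ^ 3 * d ^ 3 = k ^ 6 * (G / k * d) ^ 3 := by field_simp
    rw [this]
    gcongr
  · have e : (k * G * d) ^ 3 / 24 = k ^ 7 * ((G / k) ^ 3 * (1 / k * d ^ 3 / 24)) := by field_simp
    refine (div_le_div_of_nonneg_right w2 (by norm_num)).trans (e.trans_le ?_)
    refine mul_le_mul_of_nonneg_left (le_trans ?_ f2) (by positivity)
    refine mul_le_mul_of_nonneg_left (le_trans ?_ s) (by positivity)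
    have : 1 / k ≤ 1 - d := by linarith
    gcongr

theorem sum_int {f : ℝ → ℝ} (c : Continuous f) (p : Function.Periodic f (2 * π)) {N : ℕ}
    {x : ℤ → ℝ} (X : Cf N x) : ∑ j ∈ Finset.range N, ∫ u in x j..x (j + 1), f u =
      ∫ u in (0 : ℝ)..2 * π, f u := by
  have := sum_integral_adjacent_intervals (f := f) (μ := volume) (a := fun j : ℕ => x j) (n := N)
    fun j _ => c.intervalIntegrable _ _
  have e := X.1 0
  rw [zero_add] at e
  simp only [Nat.cast_add, Nat.cast_one, Nat.cast_zero, e] at this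
  rw [this, p.intervalIntegral_add_eq (x 0) 0, zero_add]

theorem deficit (C : Cv g z) {N : ℕ} {x : ℤ → ℝ} (X : Cf N x) :
    (∫ u in (0 : ℝ)..2 * π, g u ^ 3) - len z N x =
      ∑ j ∈ Finset.range N, df g z (x j) (x (j + 1)) := by
  rw [← sum_int (f := fun u => g u ^ 3) (C.cont.pow 3) (fun u => by simp only [C.per u]) X, len,
    ← Finset.sum_sub_distrib]
  rfl

theorem ex_cf (C : Cv g z) {N : ℕ} (N0 : 0 < N) : ∃ x, Cf N x ∧
    ∀ j, ∫ u in x j..x (j + 1), g u = (∫ u in (0 : ℝ)..2 * π, g u) / N := by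
  obtain ⟨r, r0, hr⟩ := C.lb
  set T := ∫ u in (0 : ℝ)..2 * π, g u with hT
  let W : ℝ → ℝ := fun x => ∫ u in (0 : ℝ)..x, g u
  have sub : ∀ a b, W b - W a = ∫ u in a..b, g u := fun a b =>
    integral_interval_sub_left (C.cont.intervalIntegrable _ _) (C.cont.intervalIntegrable _ _)
  have gr : ∀ a b, a ≤ b → r * (b - a) ≤ W b - W a := fun a b h => by
    rw [sub]; exact C.wt_ge h fun x _ => hr x
  have sm : StrictMono W := fun a b h => by
    have := gr a b h.le
    have := mul_pos r0 (sub_pos.2 h)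
    linarith
  have cW : Continuous W := continuous_primitive (fun _ _ => C.cont.intervalIntegrable _ _) 0
  have W0 : W 0 = 0 := integral_same
  have su : Function.Surjective W := fun y => by
    have p : 0 ≤ |y| / r := by positivity
    have a := gr (-(|y| / r)) 0 (by linarith)
    have b := gr 0 (|y| / r) p
    have e : r * (|y| / r) = |y| := by field_simp
    rw [sub_neg_eq_add, zero_add, e, W0] at a
    rw [sub_zero, e, W0] at b
    obtain ⟨x, -, hx⟩ := intermediate_value_Icc (show -(|y| / r) ≤ |y| / r by linarith)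
      cW.continuousOn (show y ∈ Icc _ _ from ⟨by linarith [neg_abs_le y],
        by linarith [le_abs_self y]⟩)
    exact ⟨x, hx⟩
  have pW : ∀ a, W (a + 2 * π) = W a + T := fun a => by
    have := sub a (a + 2 * π)
    rw [C.per.intervalIntegral_add_eq a 0, zero_add] at this
    linarith
  have T0 : 0 ≤ T := by
    have := sm.monotone two_pi_pos.le
    rwa [W0] at this
  choose x hx using fun j : ℤ => su (j * (T / N))
  have n0 : (0 : ℝ) < N := by positivity
  have q0 : 0 ≤ T / N := by positivity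
  have q1 : T / N ≤ T := div_le_self T0 (by exact_mod_cast N0)
  refine ⟨x, ⟨fun j => sm.injective ?_, fun j => ⟨sm.le_iff_le.1 ?_, sm.le_iff_le.1 ?_⟩⟩,
    fun j => ?_⟩
  · rw [pW, hx, hx]; push_cast; field_simp
  · rw [hx, hx]; push_cast; linarith
  · rw [pW, hx, hx]; push_cast; linarith
  · rw [← sub, hx, hx]; push_cast; ring

theorem upper (C : Cv g z) {k : ℝ} (k1 : 1 < k) : ∀ᶠ N : ℕ in atTop, ∃ x, Cf N x ∧
    (N : ℝ) ^ 2 * ((∫ u in (0 : ℝ)..2 * π, g u ^ 3) - len z N x) ≤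
      k ^ 6 * (∫ u in (0 : ℝ)..2 * π, g u) ^ 3 / 24 := by
  obtain ⟨η, η0, -, hη⟩ := C.loc k1
  obtain ⟨r, r0, hr⟩ := C.lb
  set T := ∫ u in (0 : ℝ)..2 * π, g u
  filter_upwards [eventually_gt_atTop 0,
    tendsto_natCast_atTop_atTop.eventually_ge_atTop (T / (r * η))] with N N0 hN
  obtain ⟨x, X, hx⟩ := C.ex_cf N0
  have n0 : (0 : ℝ) < N := by positivity
  refine ⟨x, X, ?_⟩
  rw [C.deficit X]
  have : ∀ j ∈ Finset.range N, df g z (x j) (x (j + 1)) ≤ k ^ 6 * (T / N) ^ 3 / 24 := fun j _ => by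
    have a := C.wt_ge (X.2 j).1 fun u _ => hr u
    rw [hx] at a
    have b : T / N ≤ r * η := by
      rw [div_le_iff₀ n0]; rwa [div_le_iff₀' (by positivity)] at hN
    have := (hη (x j) (x (j + 1)) (X.2 j).1
      (by have := le_of_mul_le_mul_left (a.trans b) r0; linarith)).1
    rwa [hx] at this
  refine (mul_le_mul_of_nonneg_left (Finset.sum_le_card_nsmul _ _ _ this)
    (by positivity)).trans_eq ?_
  rw [Finset.card_range, nsmul_eq_mul]
  field_simp

theorem lower (C : Cv g z) {k : ℝ} (k1 : 1 < k) : ∀ᶠ N : ℕ in atTop, ∀ x, Cf N x →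
    (∫ u in (0 : ℝ)..2 * π, g u) ^ 3 / 24 ≤
      k ^ 7 * ((N : ℝ) ^ 2 * ((∫ u in (0 : ℝ)..2 * π, g u ^ 3) - len z N x)) := by
  obtain ⟨η, η0, η1, hη⟩ := C.loc k1
  obtain ⟨r, r0, hr⟩ := C.lb
  set T := ∫ u in (0 : ℝ)..2 * π, g u with hT
  have k7 : 1 ≤ k ^ 7 := one_le_pow₀ k1.le
  have s0 : 0 < η / 2 - 2 * sin (η / 2 / 2) :=
    lt_of_lt_of_le (by have : 0 < 1 - η / 2 := by linarith
                       positivity) (sn (d := η / 2) (by positivity) (by linarith))
  set c := r ^ 3 * (η / 2 - 2 * sin (η / 2 / 2)) with hc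
  have c0 : 0 < c := by positivity
  filter_upwards [eventually_gt_atTop 0,
    tendsto_natCast_atTop_atTop.eventually_ge_atTop (T ^ 3 / 24 / c)] with N N0 hN x X
  have n1 : (1 : ℝ) ≤ N := by exact_mod_cast N0
  rw [C.deficit X]
  have lo : ∀ j : ℤ, ∀ e, e ≤ x (j + 1) - x j →
      r ^ 3 * (e - 2 * sin (e / 2)) ≤ df g z (x j) (x (j + 1)) := fun j e he =>
    (mul_le_mul_of_nonneg_left (sm he) (by positivity)).trans
      (C.df_lo (X.2 j).1 (X.2 j).2 r0.le fun u _ => hr u)
  have nn : ∀ j ∈ Finset.range N, 0 ≤ df g z (x j) (x (j + 1)) := fun j _ => by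
    simpa using lo j 0 (sub_nonneg.2 (X.2 j).1)
  have S0 := Finset.sum_nonneg nn
  by_cases h : ∀ j ∈ Finset.range N, x (j + 1) ≤ x j + η
  · have a := pow_sum_div_card_le_sum_pow (s := Finset.range N)
      (f := fun j : ℕ => ∫ u in x j..x (j + 1), g u)
      (fun j _ => integral_nonneg (X.2 j).1 fun u _ => (C.pos u).le) 2
    rw [sum_int C.cont C.per X, Finset.card_range, div_le_iff₀ (by positivity)] at a
    have b := Finset.sum_le_sum fun (j : ℕ) hj => (hη (x j) (x (j + 1)) (X.2 j).1 (h j hj)).2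
    rw [← Finset.sum_div, ← Finset.mul_sum] at b
    have := mul_le_mul_of_nonneg_right b (sq_nonneg (N : ℝ))
    norm_num at a
    nlinarith
  · push Not at h
    obtain ⟨j, hj, h⟩ := h
    have a := (lo j (η / 2) (by linarith)).trans (Finset.single_le_sum nn hj)
    rw [div_le_iff₀ c0] at hN
    set S := ∑ j ∈ Finset.range N, df g z (x j) (x (j + 1))
    have b : (N : ℝ) * c ≤ (N : ℝ) ^ 2 * S := by
      have : (N : ℝ) * c ≤ N * S := by gcongr
      nlinarith [mul_nonneg (mul_nonneg (by linarith : (0 : ℝ) ≤ N) (sub_nonneg.2 n1)) S0]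
    have : 0 ≤ (N : ℝ) ^ 2 * S := by positivity
    nlinarith

/-- `N² (L - M N) → (∫ g)³ / 24` for the greatest perimeter `M N` of an inscribed `N`-gon. -/
theorem asym (C : Cv g z) {M : ℕ → ℝ}
    (hM : ∀ N, 2 ≤ N → (∀ x, Cf N x → len z N x ≤ M N) ∧ ∃ x, Cf N x ∧ M N = len z N x) :
    Tendsto (fun N : ℕ => (N : ℝ) ^ 2 * ((∫ u in (0 : ℝ)..2 * π, g u ^ 3) - M N)) atTop
      (𝓝 ((∫ u in (0 : ℝ)..2 * π, g u) ^ 3 / 24)) := by
  set T := (∫ u in (0 : ℝ)..2 * π, g u) ^ 3
  have ne : (𝓝[>] (1 : ℝ)).NeBot := inferInstance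
  refine tendsto_order.2 ⟨fun a ha => ?_, fun a ha => ?_⟩
  · have t : Tendsto (fun k : ℝ => k ^ 7 * a) (𝓝[>] 1) (𝓝 (1 ^ 7 * a)) :=
      (Continuous.tendsto (by fun_prop) 1).mono_left nhdsWithin_le_nhds
    obtain ⟨k, h1, h2⟩ := ((t.eventually_lt_const (by simpa using ha)).and
      self_mem_nhdsWithin).exists
    filter_upwards [C.lower h2, eventually_ge_atTop 2] with N h N2
    obtain ⟨x, X, e⟩ := (hM N N2).2
    rw [e]
    exact lt_of_mul_lt_mul_left (h1.trans_le (h x X)) (pow_nonneg (zero_le_one.trans h2.le) 7)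
  · have t : Tendsto (fun k : ℝ => k ^ 6 * T / 24) (𝓝[>] 1) (𝓝 (1 ^ 6 * T / 24)) :=
      (Continuous.tendsto (by fun_prop) 1).mono_left nhdsWithin_le_nhds
    obtain ⟨k, h1, h2⟩ := ((t.eventually_lt_const (by simpa using ha)).and
      self_mem_nhdsWithin).exists
    filter_upwards [C.upper h2, eventually_ge_atTop 2] with N h N2
    obtain ⟨x, X, e⟩ := h
    refine lt_of_le_of_lt (le_trans ?_ e) h1
    have := (hM N N2).1 x X
    gcongr

end Cv

/-- two sequences of greatest perimeters which agree for large `N` have the same invariants -/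
theorem inv_eq {L L' T T' : ℝ} {M M' : ℕ → ℝ}
    (h : Tendsto (fun N : ℕ => (N : ℝ) ^ 2 * (L - M N)) atTop (𝓝 T))
    (h' : Tendsto (fun N : ℕ => (N : ℝ) ^ 2 * (L' - M' N)) atTop (𝓝 T'))
    (e : ∀ᶠ N in atTop, M N = M' N) : L = L' ∧ T = T' := by
  have d : Tendsto (fun N : ℕ => (N : ℝ) ^ 2 * (L - L')) atTop (𝓝 (T - T')) :=
    (h.sub h').congr' (e.mono fun N hN => by rw [hN]; ring)
  have i : Tendsto (fun N : ℕ => ((N : ℝ) ^ 2)⁻¹) atTop (𝓝 0) :=
    ((tendsto_pow_atTop two_ne_zero).comp tendsto_natCast_atTop_atTop).inv_tendsto_atTop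
  have z : Tendsto (fun _ : ℕ => L - L') atTop (𝓝 (0 * (T - T'))) :=
    (i.mul d).congr' ((eventually_gt_atTop 0).mono fun N hN => by
      have : (N : ℝ) ≠ 0 := by positivity
      field_simp)
  have e1 : L - L' = 0 := by simpa using tendsto_nhds_unique tendsto_const_nhds z
  simp only [e1, mul_zero] at d
  have := tendsto_nhds_unique tendsto_const_nhds d
  constructor <;> linarith

end Vale.Agent.N097Y
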