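import Vale.Agent.N097Y.Ell
import Vale.Agent.N097Y.Asym

/-! # N097Y : support function, radius of curvature and congruence of ellipses -/

namespace Vale.Agent.N097Y

open Real Set Filter Topology intervalIntegral
open MeasureTheory (volume)

/-- the open elliptic disc with centre `c`, half axes `a`, `b` and first axis in direction `φ` -/
def disc (c : ℂ) (a b φ : ℝ) : Set ℂ :=
  {z | (((z - c) * Complex.exp (-(φ * Complex.I))).re / a) ^ 2 +
    (((z - c) * Complex.exp (-(φ * Complex.I))).im / b) ^ 2 < 1}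

variable {a b : ℝ}

theorem sq_p (a0 : 0 < a) (b0 : 0 < b) (t : ℝ) : 0 < a ^ 2 * cos t ^ 2 + b ^ 2 * sin t ^ 2 := by
  have cs := cos_sq_add_sin_sq t
  rcases eq_or_ne (cos t) 0 with h | h
  · have : sin t ^ 2 = 1 := by rw [h] at cs; linarith
    rw [h, this]; positivity
  · positivity

theorem sp_pos (a0 : 0 < a) (b0 : 0 < b) (φ ψ : ℝ) : 0 < sp a b φ ψ := sqrt_pos.2 (sq_p a0 b0 _)

theorem sp_sq (a0 : 0 < a) (b0 : 0 < b) (φ ψ : ℝ) :
    sp a b φ ψ ^ 2 = a ^ 2 * cos (ψ - φ) ^ 2 + b ^ 2 * sin (ψ - φ) ^ 2 := sq_sqrt (sq_p a0 b0 _).le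

theorem sp_cont (a b φ : ℝ) : Continuous (sp a b φ) := by unfold sp; fun_prop

theorem sp_per (a b φ : ℝ) : Function.Periodic (sp a b φ) (2 * π) := fun x => by
  simp only [sp, add_sub_right_comm, cos_add_two_pi, sin_add_two_pi]

theorem exp_neg_re (φ : ℝ) : (Complex.exp (-(φ * Complex.I))).re = cos φ := by
  rw [← neg_mul, ← Complex.ofReal_neg, Complex.exp_ofReal_mul_I_re, cos_neg]

theorem exp_neg_im (φ : ℝ) : (Complex.exp (-(φ * Complex.I))).im = -sin φ := by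
  rw [← neg_mul, ← Complex.ofReal_neg, Complex.exp_ofReal_mul_I_im, sin_neg]

theorem dot_eq (z c : ℂ) (φ θ : ℝ) : z.re * cos θ + z.im * sin θ = c.re * cos θ + c.im * sin θ +
    (((z - c) * Complex.exp (-(φ * Complex.I))).re * cos (θ - φ) +
      ((z - c) * Complex.exp (-(φ * Complex.I))).im * sin (θ - φ)) := by
  simp only [Complex.mul_re, Complex.mul_im, exp_neg_re, exp_neg_im, cos_sub, sin_sub,
    Complex.sub_re, Complex.sub_im]
  linear_combination (-((z.re - c.re) * cos θ + (z.im - c.im) * sin θ)) * cos_sq_add_sin_sq φ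

theorem isLUB_disc (a0 : 0 < a) (b0 : 0 < b) (c : ℂ) (φ θ : ℝ) :
    IsLUB ((fun z : ℂ => z.re * cos θ + z.im * sin θ) '' disc c a b φ)
      (c.re * cos θ + c.im * sin θ + sp a b φ θ) := by
  have s0 := sp_pos a0 b0 φ θ
  have s2 := sp_sq a0 b0 φ θ
  constructor
  · rintro _ ⟨z, hz, rfl⟩
    simp only [disc, mem_ofPred_eq] at hz
    simp only
    rw [dot_eq z c φ θ]
    set X := ((z - c) * Complex.exp (-(φ * Complex.I))).re
    set Y := ((z - c) * Complex.exp (-(φ * Complex.I))).im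
    refine add_le_add le_rfl (abs_le_of_sq_le_sq' ?_ s0.le).2
    have e : X * cos (θ - φ) + Y * sin (θ - φ) =
        X / a * (a * cos (θ - φ)) + Y / b * (b * sin (θ - φ)) := by field_simp
    rw [e]
    nlinarith [sq_nonneg (X / a * (b * sin (θ - φ)) - Y / b * (a * cos (θ - φ))),
      mul_nonneg (sub_nonneg.2 hz.le) (sq_nonneg (sp a b φ θ))]
  · intro u hu
    have t : Tendsto (fun t : ℝ => c.re * cos θ + c.im * sin θ + t * sp a b φ θ) (𝓝[<] 1)
        (𝓝 (c.re * cos θ + c.im * sin θ + 1 * sp a b φ θ)) :=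
      (Continuous.tendsto (by fun_prop) 1).mono_left nhdsWithin_le_nhds
    rw [one_mul] at t
    refine le_of_tendsto t ?_
    filter_upwards [Ioo_mem_nhdsLT one_pos] with t ht
    let w : ℂ := ⟨t * a ^ 2 * cos (θ - φ) / sp a b φ θ, t * b ^ 2 * sin (θ - φ) / sp a b φ θ⟩
    have e : (c + w * Complex.exp (φ * Complex.I) - c) * Complex.exp (-(φ * Complex.I)) = w := by
      rw [add_sub_cancel_left, mul_assoc, ← Complex.exp_add, add_neg_cancel, Complex.exp_zero,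
        mul_one]
    refine le_of_eq_of_le ?_ (hu ⟨c + w * Complex.exp (φ * Complex.I), ?_, rfl⟩)
    · simp only
      rw [dot_eq (c + w * Complex.exp (φ * Complex.I)) c φ θ, e]
      simp only [w]
      field_simp
      linear_combination t * s2
    · simp only [disc, mem_ofPred_eq, e, w]
      have : (t * a ^ 2 * cos (θ - φ) / sp a b φ θ / a) ^ 2 +
          (t * b ^ 2 * sin (θ - φ) / sp a b φ θ / b) ^ 2 = t ^ 2 := by
        field_simp
        linear_combination (-t ^ 2) * s2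
      rw [this]
      nlinarith [ht.1, ht.2]

theorem mem_disc (c : ℂ) (a b φ : ℝ) : c ∈ disc c a b φ := by simp [disc]

/-- the derivative of `sp` -/
noncomputable def sp1 (a b φ ψ : ℝ) : ℝ :=
  (b ^ 2 - a ^ 2) * (sin (ψ - φ) * cos (ψ - φ)) * (sp a b φ ψ)⁻¹

theorem d_sp (a0 : 0 < a) (b0 : 0 < b) (φ ψ : ℝ) : HasDerivAt (sp a b φ) (sp1 a b φ ψ) ψ := by
  have u : HasDerivAt (fun x : ℝ => x - φ) 1 ψ := (hasDerivAt_id ψ).sub_const φ
  have s0 := sp_pos a0 b0 φ ψ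
  refine ((((u.cos.pow 2).const_mul (a ^ 2)).add ((u.sin.pow 2).const_mul (b ^ 2))).sqrt
    (sq_p a0 b0 _).ne').congr_deriv ?_
  change _ / (2 * sp a b φ ψ) = _
  unfold sp1
  field_simp
  simp
  ring

theorem d_sp1 (a0 : 0 < a) (b0 : 0 < b) (φ ψ : ℝ) :
    HasDerivAt (sp1 a b φ) ((a * b) ^ 2 * (sp a b φ ψ)⁻¹ ^ 3 - sp a b φ ψ) ψ := by
  have u : HasDerivAt (fun x : ℝ => x - φ) 1 ψ := (hasDerivAt_id ψ).sub_const φ
  have s0 := sp_pos a0 b0 φ ψ
  have s2 := sp_sq a0 b0 φ ψ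
  refine (((u.sin.mul u.cos).const_mul (b ^ 2 - a ^ 2)).mul
    ((d_sp a0 b0 φ ψ).inv s0.ne')).congr_deriv ?_
  simp only [Pi.mul_apply, Pi.inv_apply, sp1]
  set r := sp a b φ ψ
  have cs : cos (ψ - φ) ^ 2 = 1 - sin (ψ - φ) ^ 2 := cos_sq' _
  have e4 : r ^ 4 = (r ^ 2) ^ 2 := by ring
  field_simp
  rw [e4, s2, cs]
  ring

/-- cube root of the radius of curvature of the ellipse -/
noncomputable def gE (a b φ ψ : ℝ) : ℝ := ((a * b) ^ 2) ^ ((3 : ℕ) : ℝ)⁻¹ * (sp a b φ ψ)⁻¹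

theorem k3 (a b : ℝ) : (((a * b) ^ 2) ^ ((3 : ℕ) : ℝ)⁻¹) ^ 3 = (a * b) ^ 2 :=
  rpow_inv_natCast_pow (sq_nonneg _) three_ne_zero

theorem gE_cube (a b φ ψ : ℝ) : gE a b φ ψ ^ 3 = (a * b) ^ 2 * (sp a b φ ψ)⁻¹ ^ 3 := by
  rw [gE, mul_pow, k3]

theorem gE_cont (a0 : 0 < a) (b0 : 0 < b) (φ : ℝ) : Continuous (gE a b φ) :=
  continuous_const.mul ((sp_cont a b φ).inv₀ fun x => (sp_pos a0 b0 φ x).ne')

theorem gE_pos (a0 : 0 < a) (b0 : 0 < b) (φ ψ : ℝ) : 0 < gE a b φ ψ :=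
  mul_pos (by positivity) (inv_pos.2 (sp_pos a0 b0 φ ψ))

theorem gE_per (a b φ : ℝ) : Function.Periodic (gE a b φ) (2 * π) := fun x => by
  simp only [gE, sp_per a b φ x]

theorem int_gE (a b φ : ℝ) : (∫ ψ in (0 : ℝ)..2 * π, gE a b φ ψ) ^ 3 =
    (a * b) ^ 2 * (∫ ψ in (0 : ℝ)..2 * π, (sp a b φ ψ)⁻¹) ^ 3 := by
  simp only [gE, integral_const_mul]
  rw [mul_pow, k3]

theorem int_gE3 (a0 : 0 < a) (b0 : 0 < b) (φ : ℝ) :
    ∫ ψ in (0 : ℝ)..2 * π, gE a b φ ψ ^ 3 = ∫ ψ in (0 : ℝ)..2 * π, sp a b φ ψ := by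
  have c : Continuous fun ψ => gE a b φ ψ ^ 3 := (gE_cont a0 b0 φ).pow 3
  have := integral_eq_sub_of_hasDerivAt (a := 0) (b := 2 * π) (f := sp1 a b φ)
    (f' := fun ψ => gE a b φ ψ ^ 3 - sp a b φ ψ) (fun ψ _ => by rw [gE_cube]; exact d_sp1 a0 b0 φ ψ)
    ((c.sub (sp_cont a b φ)).intervalIntegrable _ _)
  have p : sp1 a b φ (0 + 2 * π) = sp1 a b φ 0 := by
    simp only [sp1, sp_per a b φ 0, add_sub_right_comm, cos_add_two_pi, sin_add_two_pi]
  rw [zero_add] at p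
  rw [integral_sub (c.intervalIntegrable _ _) ((sp_cont a b φ).intervalIntegrable _ _), p] at this
  linarith

/-- the radius of curvature of the ellipse with support function `p cos + q sin + sp` -/
theorem rad_ell (a0 : 0 < a) (b0 : 0 < b) (φ p q : ℝ) {h : ℝ → ℝ}
    (e : ∀ ψ, h ψ = p * cos ψ + q * sin ψ + sp a b φ ψ) (x : ℝ) :
    h x + deriv (deriv h) x = gE a b φ x ^ 3 := by
  have d1 : deriv h = fun ψ => p * -sin ψ + q * cos ψ + sp1 a b φ ψ := funext fun ψ => by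
    rw [funext e]
    exact ((((hasDerivAt_cos ψ).const_mul p).add ((hasDerivAt_sin ψ).const_mul q)).add
      (d_sp a0 b0 φ ψ)).deriv
  have d2 : deriv (fun ψ => p * -sin ψ + q * cos ψ + sp1 a b φ ψ) x = _ :=
    ((((hasDerivAt_sin x).neg.const_mul p).add ((hasDerivAt_cos x).const_mul q)).add
      (d_sp1 a0 b0 φ x)).deriv
  rw [d1, d2, e, gE_cube]
  ring

theorem disc_swap (c : ℂ) (a b φ : ℝ) : disc c a b φ = disc c b a (φ + π / 2) := by
  ext z
  simp only [disc, mem_ofPred_eq, Complex.mul_re, Complex.mul_im, exp_neg_re, exp_neg_im,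
    cos_add_pi_div_two, sin_add_pi_div_two]
  constructor <;> intro h <;> refine lt_of_eq_of_lt ?_ h <;> ring

theorem disc_move (c c' : ℂ) (a b φ φ' : ℝ) :
    ∃ u v : ℂ, ‖u‖ = 1 ∧ (fun z => u * z + v) '' disc c a b φ = disc c' a b φ' := by
  let u : ℂ := Complex.exp ((φ' - φ : ℝ) * Complex.I)
  have u0 : u ≠ 0 := Complex.exp_ne_zero _
  have k : ∀ z, (u * z + (c' - u * c) - c') * Complex.exp (-(φ' * Complex.I)) =
      (z - c) * Complex.exp (-(φ * Complex.I)) := fun z => by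
    have : u * Complex.exp (-(φ' * Complex.I)) = Complex.exp (-(φ * Complex.I)) := by
      rw [← Complex.exp_add]; push_cast; ring_nf
    rw [← this]; ring
  refine ⟨u, c' - u * c, Complex.norm_exp_ofReal_mul_I _, Subset.antisymm ?_ fun w hw => ?_⟩
  · rintro _ ⟨z, hz, rfl⟩
    simpa only [disc, mem_ofPred_eq, k] using hz
  · have e : u * (u⁻¹ * (w - (c' - u * c))) + (c' - u * c) = w := by field_simp; ring
    refine ⟨_, ?_, e⟩
    rw [← e] at hw
    simpa only [disc, mem_ofPred_eq, k] using hw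

end Vale.Agent.N097Y
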