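import Vale.Agent.N097.Top
import Vale.Agent.N097Y.Sup

/-! # N097Y : the longest periodic orbits determine an ellipse up to congruence -/

namespace Vale.Agent.N097Y

open Real Set Filter Topology Vale.Agent.P097 Vale.Agent.P097B Vale.Agent.N097

variable {Ω Ω' : Set ℂ} {L L' : ℝ} {Γ Γ' : ℝ → ℂ}

theorem cf_iff {N : ℕ} {x : ℤ → ℝ} : Cf N x ↔ N097.Cfg N 1 x := by simp [Cf, N097.Cfg]

/-- second order asymptotics of the longest `N`-periodic orbit, in the normal angle -/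
theorem asym_dic {h ψ σ g : ℝ → ℝ} (D : Dic L Γ h ψ σ) (C : Cv g (bdry h)) :
    Tendsto (fun N : ℕ => (N : ℝ) ^ 2 * ((∫ u in (0 : ℝ)..2 * π, g u ^ 3) - maxLength L Γ N 1))
      atTop (𝓝 ((∫ u in (0 : ℝ)..2 * π, g u) ^ 3 / 24)) := by
  refine C.asym fun N N2 => ?_
  obtain ⟨x, G, -⟩ := exists_gmax D.H one_pos (show 1 < N by omega) 0
  rw [D.ml one_pos (by omega), G.ml]
  exact ⟨fun y Y => G.2 y (cf_iff.1 Y), x, cf_iff.2 G.1, rfl⟩

theorem asym_ell (T : Arc.Table Ω L Γ) {c : ℂ} {a b φ : ℝ} (a0 : 0 < a) (b0 : 0 < b)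
    (e : Ω = disc c a b φ) :
    Tendsto (fun N : ℕ => (N : ℝ) ^ 2 * ((∫ u in (0 : ℝ)..2 * π, sp a b φ u) - maxLength L Γ N 1))
      atTop (𝓝 ((a * b) ^ 2 * (∫ u in (0 : ℝ)..2 * π, (sp a b φ u)⁻¹) ^ 3 / 24)) := by
  obtain ⟨h, ψ, σ, D⟩ := exists_dic T
  have s := Arc.supp_eq D.H T.1 T.2.1 (D.rg.trans T.2.2.2.2.2.2.2.1)
  have he : ∀ θ, h θ = c.re * cos θ + c.im * sin θ + sp a b φ θ := fun θ => by
    rw [← s, e]
    exact (isLUB_disc a0 b0 c φ θ).csSup_eq ⟨_, c, mem_disc c a b φ, rfl⟩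
  have C : Cv (gE a b φ) (bdry h) := ⟨gE_cont a0 b0 φ, gE_pos a0 b0 φ, gE_per a b φ, fun x => by
    rw [← rad_ell a0 b0 φ _ _ he]
    exact dbdry D.H x⟩
  have := asym_dic D C
  rwa [int_gE, int_gE3 a0 b0] at this

theorem sp_mul {r : ℝ} (r0 : 0 < r) (a b φ ψ : ℝ) : sp (r * a) (r * b) φ ψ = r * sp a b φ ψ := by
  unfold sp
  rw [← sqrt_sq r0.le, ← sqrt_mul (sq_nonneg _), sqrt_sq r0.le]
  congr 1
  ring

theorem disc_mul {r : ℝ} (r0 : 0 < r) (c : ℂ) (a b φ : ℝ) :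
    (fun z => (r : ℂ) * z) '' disc c a b φ = disc (r * c) (r * a) (r * b) φ := by
  have k : ∀ z, (r : ℂ) * z ∈ disc (r * c) (r * a) (r * b) φ ↔ z ∈ disc c a b φ := fun z => by
    simp only [disc, mem_ofPred_eq]
    rw [← mul_sub, mul_assoc, Complex.re_ofReal_mul, Complex.im_ofReal_mul,
      mul_div_mul_left _ _ r0.ne', mul_div_mul_left _ _ r0.ne']
  have r1 : (r : ℂ) ≠ 0 := by exact_mod_cast r0.ne'
  refine Subset.antisymm ?_ fun w hw => ?_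
  · rintro _ ⟨z, hz, rfl⟩
    exact (k z).2 hz
  · have e : (r : ℂ) * ((r : ℂ)⁻¹ * w) = w := by field_simp
    exact ⟨_, (k _).1 (e.symm ▸ hw), e⟩

/-- two elliptic tables whose longest `n`-gons have a fixed ratio for large `n` are similar -/
theorem similar (T : Arc.Table Ω L Γ) (T' : Arc.Table Ω' L' Γ') (E : Arc.IsEllipse Ω)
    (E' : Arc.IsEllipse Ω') {r : ℝ} (r0 : 0 < r)
    (k : ∀ᶠ n : ℕ in atTop, maxLength L Γ n 1 = r * maxLength L' Γ' n 1) :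
    ∃ u v : ℂ, ‖u‖ = r ∧ Ω = (fun z => u * z + v) '' Ω' := by
  obtain ⟨c, a, b, φ, a0, b0, e⟩ := E
  obtain ⟨c', a', b', φ', a0', b0', e'⟩ := E'
  have t := (asym_ell T' a0' b0' e').const_mul r
  have t' : Tendsto (fun N : ℕ => (N : ℝ) ^ 2 *
      ((∫ u in (0 : ℝ)..2 * π, sp (r * a') (r * b') φ' u) - r * maxLength L' Γ' N 1)) atTop
      (𝓝 ((r * a' * (r * b')) ^ 2 *
        (∫ u in (0 : ℝ)..2 * π, (sp (r * a') (r * b') φ' u)⁻¹) ^ 3 / 24)) := by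
    simp only [sp_mul r0, mul_inv, intervalIntegral.integral_const_mul]
    convert t using 2
    · ring
    · field_simp
  obtain ⟨e1, e2⟩ := inv_eq (asym_ell T a0 b0 e) t' k
  change Ω = disc c a b φ at e
  change Ω' = disc c' a' b' φ' at e'
  have fin : ∀ ψ, Ω = disc c (r * a') (r * b') ψ →
      ∃ u v : ℂ, ‖u‖ = r ∧ Ω = (fun z => u * z + v) '' Ω' := fun ψ h => by
    obtain ⟨u, v, u1, m⟩ := disc_move (r * c') c (r * a') (r * b') φ' ψ
    refine ⟨u * r, v, by rw [norm_mul, u1, one_mul, Complex.norm_real, norm_of_nonneg r0.le], ?_⟩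
    rw [h, ← m, ← disc_mul r0, e', image_image]
    simp only [mul_assoc]
  rcases ell_inj a0 b0 (mul_pos r0 a0') (mul_pos r0 b0') e1 (by linarith) with
    ⟨rfl, rfl⟩ | ⟨rfl, rfl⟩
  · exact fin φ e
  · exact fin _ (e.trans (disc_swap ..))

end Vale.Agent.N097Y
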