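import Mathlib.Analysis.Calculus.ParametricIntervalIntegral
import Mathlib.Analysis.Calculus.Deriv.MeanValue
import Mathlib.Analysis.SpecialFunctions.Integrals.Basic
import Mathlib.Analysis.SpecialFunctions.Sqrt
import Mathlib.MeasureTheory.Integral.IntervalIntegral.Periodic

/-! # N097Y : perimeter and second Marvizi-Melrose invariant determine an ellipse -/

namespace Vale.Agent.N097Y

open Real Set intervalIntegral
open MeasureTheory (volume)

/-- `1 - m cos² t` -/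
noncomputable def eq (m t : ℝ) : ℝ := 1 - m * cos t ^ 2

noncomputable def eI (m : ℝ) : ℝ := ∫ t in (0 : ℝ)..2 * π, (√(eq m t))⁻¹

noncomputable def eJ (m : ℝ) : ℝ := ∫ t in (0 : ℝ)..2 * π, √(eq m t)

noncomputable def eA (m : ℝ) : ℝ := ∫ t in (0 : ℝ)..2 * π, cos t ^ 2 / (2 * √(eq m t) ^ 3)

noncomputable def eB (m : ℝ) : ℝ := ∫ t in (0 : ℝ)..2 * π, -cos t ^ 2 / (2 * √(eq m t))

theorem eq_ge {m c : ℝ} (h : m ≤ c) (c0 : 0 ≤ c) (t : ℝ) : 1 - c ≤ eq m t := by
  have h1 : cos t ^ 2 ≤ 1 := cos_sq_le_one t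
  have h2 : 0 ≤ cos t ^ 2 := sq_nonneg _
  unfold eq
  nlinarith [mul_nonneg (sub_nonneg.2 h) h2, mul_nonneg c0 (sub_nonneg.2 h1)]

theorem eq_pos {m : ℝ} (h : m < 1) (t : ℝ) : 0 < eq m t := by
  have := eq_ge (le_max_left m 0) (le_max_right m 0) t
  have : max m 0 < 1 := max_lt h one_pos
  linarith

theorem sq_pos {m : ℝ} (h : m < 1) (t : ℝ) : 0 < √(eq m t) := sqrt_pos.2 (eq_pos h t)

theorem cq (m : ℝ) : Continuous fun t => √(eq m t) := by unfold eq; fun_prop

theorem cI {m : ℝ} (h : m < 1) : Continuous fun t => (√(eq m t))⁻¹ :=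
  (cq m).inv₀ fun t => (sq_pos h t).ne'

theorem cA {m : ℝ} (h : m < 1) : Continuous fun t => cos t ^ 2 / (2 * √(eq m t) ^ 3) :=
  Continuous.div (by fun_prop) (continuous_const.mul ((cq m).pow 3)) fun t =>
    (mul_pos two_pos (pow_pos (sq_pos h t) 3)).ne'

theorem cB {m : ℝ} (h : m < 1) : Continuous fun t => -cos t ^ 2 / (2 * √(eq m t)) :=
  Continuous.div (by fun_prop) (continuous_const.mul (cq m)) fun t =>
    (mul_pos two_pos (sq_pos h t)).ne'

theorem dq {m : ℝ} (h : m < 1) (t : ℝ) :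
    HasDerivAt (fun m => √(eq m t)) (-cos t ^ 2 / (2 * √(eq m t))) m := by
  have : HasDerivAt (fun m => eq m t) (-cos t ^ 2) m := by
    unfold eq
    simpa using ((hasDerivAt_id m).mul_const (cos t ^ 2)).const_sub 1
  exact this.sqrt (eq_pos h t).ne'

theorem dqi {m : ℝ} (h : m < 1) (t : ℝ) :
    HasDerivAt (fun m => (√(eq m t))⁻¹) (cos t ^ 2 / (2 * √(eq m t) ^ 3)) m := by
  have p := sq_pos h t
  refine ((dq h t).inv p.ne').congr_deriv ?_
  field_simp

theorem near {m : ℝ} (h : m < 1) : ∃ c, 0 < c ∧ Iio ((1 + m) / 2) ∈ nhds m ∧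
    ∀ x ∈ Iio ((1 + m) / 2), x < 1 ∧ ∀ t, c ≤ √(eq x t) := by
  have h1 : max ((1 + m) / 2) 0 < 1 := max_lt (by linarith) one_pos
  refine ⟨√(1 - max ((1 + m) / 2) 0), sqrt_pos.2 (by linarith), Iio_mem_nhds (by linarith),
    fun x hx => ⟨by have : x < (1 + m) / 2 := hx; linarith, fun t => sqrt_le_sqrt ?_⟩⟩
  exact eq_ge ((le_of_lt hx).trans (le_max_left _ _)) (le_max_right _ _) t

theorem dJ {m : ℝ} (h : m < 1) : HasDerivAt eJ (eB m) m := by
  obtain ⟨c, c0, hs, hc⟩ := near h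
  refine (hasDerivAt_integral_of_dominated_loc_of_deriv_le (μ := volume)
    (F := fun m t => √(eq m t)) (F' := fun m t => -cos t ^ 2 / (2 * √(eq m t)))
    (bound := fun _ => 1 / (2 * c)) hs
    (Filter.Eventually.of_forall fun x => (cq x).aestronglyMeasurable)
    ((cq m).intervalIntegrable _ _) (cB h).aestronglyMeasurable
    (Filter.Eventually.of_forall fun t _ x hx => ?_) (by simp)
    (Filter.Eventually.of_forall fun t _ x hx => dq (hc x hx).1 t)).2
  have p := (hc x hx).2 t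
  rw [Real.norm_eq_abs, abs_div, abs_neg, abs_of_nonneg (sq_nonneg _),
    abs_of_pos (by linarith)]
  exact div_le_div₀ one_pos.le (cos_sq_le_one t) (by linarith) (by linarith)

theorem dI {m : ℝ} (h : m < 1) : HasDerivAt eI (eA m) m := by
  obtain ⟨c, c0, hs, hc⟩ := near h
  refine (hasDerivAt_integral_of_dominated_loc_of_deriv_le (μ := volume)
    (F := fun m t => (√(eq m t))⁻¹) (F' := fun m t => cos t ^ 2 / (2 * √(eq m t) ^ 3))
    (bound := fun _ => 1 / (2 * c ^ 3)) hs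
    (Filter.Eventually.of_forall fun x => ((cq x).measurable.inv).aestronglyMeasurable)
    ((cI h).intervalIntegrable _ _) (cA h).aestronglyMeasurable
    (Filter.Eventually.of_forall fun t _ x hx => ?_) (by simp)
    (Filter.Eventually.of_forall fun t _ x hx => dqi (hc x hx).1 t)).2
  have p := (hc x hx).2 t
  have p3 : c ^ 3 ≤ √(eq x t) ^ 3 := pow_le_pow_left₀ c0.le p 3
  have c3 := pow_pos c0 3
  rw [Real.norm_eq_abs, abs_div, abs_of_nonneg (sq_nonneg _), abs_of_pos (by linarith)]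
  exact div_le_div₀ one_pos.le (cos_sq_le_one t) (by linarith) (by linarith)

theorem sq_sq {m : ℝ} (h : m < 1) (t : ℝ) : √(eq m t) ^ 2 = 1 - m * cos t ^ 2 :=
  sq_sqrt (eq_pos h t).le

/-- `m J' = (J - I) / 2` -/
theorem eB_eq {m : ℝ} (h : m < 1) : 2 * m * eB m = eJ m - eI m := by
  unfold eB eJ eI
  rw [← integral_const_mul, ← integral_sub ((cq m).intervalIntegrable _ _)
    ((cI h).intervalIntegrable _ _)]
  refine integral_congr fun t _ => ?_
  have p := sq_pos h t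
  have e := sq_sq h t
  field_simp
  linarith

/-- `2 m (1 - m) I' = J - (1 - m) I` -/
theorem eA_eq {m : ℝ} (h : m < 1) : 2 * m * (1 - m) * eA m = eJ m - (1 - m) * eI m := by
  have key : ∀ t, HasDerivAt (fun t => m * (sin t * cos t * (√(eq m t))⁻¹))
      (2 * m * (1 - m) * (cos t ^ 2 / (2 * √(eq m t) ^ 3)) -
        (√(eq m t) - (1 - m) * (√(eq m t))⁻¹)) t := by
    intro t
    have p := sq_pos h t
    have e := sq_sq h t
    have d0 : HasDerivAt (fun t => eq m t) (2 * m * cos t * sin t) t := by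
      unfold eq
      refine ((((hasDerivAt_cos t).pow 2).const_mul m).const_sub 1).congr_deriv ?_
      simp; ring
    have d1 := (d0.sqrt (eq_pos h t).ne').inv p.ne'
    refine ((((hasDerivAt_sin t).mul (hasDerivAt_cos t)).mul d1).const_mul m).congr_deriv ?_
    have s := sin_sq_add_cos_sq t
    simp only [Pi.mul_apply, Pi.inv_apply]
    set r := √(eq m t)
    field_simp
    have s2 : sin t ^ 2 = 1 - cos t ^ 2 := by linarith
    rw [e, s2]
    ring
  have c1 : Continuous fun t => 2 * m * (1 - m) * (cos t ^ 2 / (2 * √(eq m t) ^ 3)) :=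
    continuous_const.mul (cA h)
  have c2 : Continuous fun t => (1 - m) * (√(eq m t))⁻¹ := continuous_const.mul (cI h)
  have c3 : Continuous fun t => √(eq m t) - (1 - m) * (√(eq m t))⁻¹ := (cq m).sub c2
  have := integral_eq_sub_of_hasDerivAt (a := 0) (b := 2 * π) (fun t _ => key t)
    ((c1.sub c3).intervalIntegrable _ _)
  rw [integral_sub (c1.intervalIntegrable _ _) (c3.intervalIntegrable _ _),
    integral_sub ((cq m).intervalIntegrable _ _) (c2.intervalIntegrable _ _), integral_const_mul,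
    integral_const_mul] at this
  simp only [sin_two_pi, sin_zero, zero_mul, mul_zero, sub_self] at this
  unfold eA eJ eI
  linarith

theorem eI_pos {m : ℝ} (h : m < 1) : 0 < eI m :=
  intervalIntegral_pos_of_pos ((cI h).intervalIntegrable _ _)
    (fun t => inv_pos.2 (sq_pos h t)) two_pi_pos

theorem eJ_pos {m : ℝ} (h : m < 1) : 0 < eJ m :=
  intervalIntegral_pos_of_pos ((cq m).intervalIntegrable _ _) (sq_pos h) two_pi_pos

theorem low {m : ℝ} (h0 : 0 ≤ m) (h : m < 1) : (1 - m) * eI m ≤ eJ m := by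
  unfold eI eJ
  rw [← integral_const_mul]
  refine integral_mono_on two_pi_pos.le ((continuous_const.mul (cI h)).intervalIntegrable _ _)
    ((cq m).intervalIntegrable _ _) fun t _ => ?_
  have p := sq_pos h t
  have e := sq_sq h t
  have := eq_ge le_rfl h0 t
  unfold eq at this
  rw [← div_eq_mul_inv, div_le_iff₀ p]
  nlinarith

theorem upp {m : ℝ} (h : m < 1) : eJ m ≤ (1 - m / 2) * eI m := by
  have c0 : 0 < √(1 - m / 2) := sqrt_pos.2 (by linarith)
  have ec : √(1 - m / 2) ^ 2 = 1 - m / 2 := sq_sqrt (by linarith)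
  set c := √(1 - m / 2)
  have z : ∫ t in (0 : ℝ)..2 * π, m / (2 * c) * (2 * cos t ^ 2 - 1) = 0 := by
    rw [integral_const_mul, integral_sub (by apply Continuous.intervalIntegrable; fun_prop)
      (by simp), integral_const_mul, integral_cos_sq]
    simp
  have c2 : Continuous fun t => (1 - m / 2) * (√(eq m t))⁻¹ := continuous_const.mul (cI h)
  have := integral_mono_on (μ := volume) (f := fun t => m / (2 * c) * (2 * cos t ^ 2 - 1))
    (g := fun t => (1 - m / 2) * (√(eq m t))⁻¹ - √(eq m t)) two_pi_pos.le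
    (by apply Continuous.intervalIntegrable; fun_prop)
    ((c2.sub (cq m)).intervalIntegrable _ _) fun t _ => ?_
  · rw [z, integral_sub (c2.intervalIntegrable _ _) ((cq m).intervalIntegrable _ _),
      integral_const_mul] at this
    unfold eI eJ
    linarith
  have p := sq_pos h t
  have e := sq_sq h t
  set r := √(eq m t)
  have e1 : m / (2 * c) * (2 * cos t ^ 2 - 1) = (c ^ 2 - r ^ 2) / c := by
    rw [e, ec]; field_simp; ring
  have e2 : (1 - m / 2) * r⁻¹ - r = (c ^ 2 - r ^ 2) / r := by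
    rw [← ec]; field_simp
  rw [e1, e2, div_le_div_iff₀ c0 p]
  nlinarith [mul_nonneg (sq_nonneg (c - r)) (add_pos c0 p).le]

/-- the scale invariant ratio -/
noncomputable def eF (m : ℝ) : ℝ := (1 - m) * eI m ^ 3 / eJ m

theorem dF {m : ℝ} (h : m < 1) : HasDerivAt eF
    (((-1 * eI m ^ 3 + (1 - m) * (3 * eI m ^ 2 * eA m)) * eJ m - (1 - m) * eI m ^ 3 * eB m) /
      eJ m ^ 2) m := by
  have d1 : HasDerivAt (fun m : ℝ => 1 - m) (-1) m := (hasDerivAt_id m).const_sub 1
  exact ((d1.mul ((dI h).pow 3)).div (dJ h) (eJ_pos h).ne').congr_deriv (by simp)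

theorem eF_anti : StrictAntiOn eF (Ico 0 1) := by
  refine strictAntiOn_of_deriv_neg (convex_Ico 0 1)
    (fun m hm => (dF hm.2).continuousAt.continuousWithinAt) fun m hm => ?_
  rw [interior_Ico] at hm
  obtain ⟨h0, h⟩ := hm
  rw [(dF h).deriv]
  have i0 := eI_pos h
  have j0 := eJ_pos h
  have a := eA_eq h
  have b := eB_eq h
  have l := low h0.le h
  have u := upp h
  refine div_neg_of_neg_of_pos ?_ (pow_pos j0 2)
  set I := eI m
  set J := eJ m
  have key : 3 * J ^ 2 - (4 - 2 * m) * I * J + (1 - m) * I ^ 2 < 0 := by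
    have h1 : 0 ≤ (J - (1 - m) * I) * ((1 - m / 2) * I - J) :=
      mul_nonneg (by linarith) (by linarith)
    have h2 : 0 < m / 2 * (J - (1 - m) * I) + 2 * (1 - m) * ((1 - m / 2) * I - J) := by
      rcases l.eq_or_lt with l | l
      · have : 0 < (1 - m / 2) * I - J := by rw [← l]; nlinarith [mul_pos h0 i0]
        have := mul_pos (sub_pos.2 h) this
        rw [l]; linarith
      · have := mul_pos h0 (sub_pos.2 l)
        have := mul_nonneg (sub_pos.2 h).le (sub_nonneg.2 u)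
        linarith
    have := mul_pos i0 h2
    nlinarith
  have e : 2 * m * ((-1 * I ^ 3 + (1 - m) * (3 * I ^ 2 * eA m)) * J - (1 - m) * I ^ 3 * eB m) =
      I ^ 2 * (3 * J ^ 2 - (4 - 2 * m) * I * J + (1 - m) * I ^ 2) := by
    linear_combination (3 * I ^ 2 * J) * a - ((1 - m) * I ^ 3) * b
  have := mul_neg_of_pos_of_neg (pow_pos i0 2) key
  rw [← e] at this
  by_contra hc
  push Not at hc
  have := mul_nonneg (mul_pos two_pos h0).le hc
  linarith

/-- the support function of the centred ellipse -/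
noncomputable def sp (a b φ ψ : ℝ) : ℝ := √(a ^ 2 * cos (ψ - φ) ^ 2 + b ^ 2 * sin (ψ - φ) ^ 2)

theorem sp_swap (a b φ ψ : ℝ) : sp a b φ ψ = sp b a (φ + π / 2) ψ := by
  unfold sp
  rw [← sub_sub, cos_sub_pi_div_two, sin_sub_pi_div_two, neg_sq, add_comm]

theorem sp_eq {a b : ℝ} (b0 : 0 < b) (φ ψ : ℝ) :
    sp a b φ ψ = b * √(eq (1 - (a / b) ^ 2) (ψ - φ)) := by
  unfold sp eq
  rw [← sqrt_sq b0.le, ← sqrt_mul (sq_nonneg _), sqrt_sq b0.le, sin_sq]
  congr 1
  field_simp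
  ring

theorem int_shift (f : ℝ → ℝ) (m φ : ℝ) : ∫ ψ in (0 : ℝ)..2 * π, f (√(eq m (ψ - φ))) =
    ∫ ψ in (0 : ℝ)..2 * π, f (√(eq m ψ)) := by
  have p : Function.Periodic (fun ψ => f (√(eq m ψ))) (2 * π) := fun x => by
    simp only [eq, cos_add_two_pi]
  rw [integral_comp_sub_right (fun ψ => f (√(eq m ψ))), zero_sub, sub_eq_neg_add,
    p.intervalIntegral_add_eq (-φ) 0, zero_add]

theorem int_sp {a b : ℝ} (b0 : 0 < b) (φ : ℝ) :
    ∫ ψ in (0 : ℝ)..2 * π, sp a b φ ψ = b * eJ (1 - (a / b) ^ 2) := by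
  simp only [sp_eq b0, integral_const_mul]
  rw [int_shift fun x => x, eJ]

theorem int_spi {a b : ℝ} (b0 : 0 < b) (φ : ℝ) :
    ∫ ψ in (0 : ℝ)..2 * π, (sp a b φ ψ)⁻¹ = b⁻¹ * eI (1 - (a / b) ^ 2) := by
  simp only [sp_eq b0, mul_inv, integral_const_mul]
  rw [int_shift fun x => x⁻¹, eI]

theorem ell_inj_le {a b a' b' φ φ' : ℝ} (a0 : 0 < a) (ab : a ≤ b) (a0' : 0 < a') (ab' : a' ≤ b')
    (e1 : ∫ ψ in (0 : ℝ)..2 * π, sp a b φ ψ = ∫ ψ in (0 : ℝ)..2 * π, sp a' b' φ' ψ)
    (e2 : (a * b) ^ 2 * (∫ ψ in (0 : ℝ)..2 * π, (sp a b φ ψ)⁻¹) ^ 3 =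
      (a' * b') ^ 2 * (∫ ψ in (0 : ℝ)..2 * π, (sp a' b' φ' ψ)⁻¹) ^ 3) : a = a' ∧ b = b' := by
  have b0 := a0.trans_le ab
  have b0' := a0'.trans_le ab'
  have mem : ∀ {a b : ℝ}, 0 < a → a ≤ b → 1 - (a / b) ^ 2 ∈ Ico (0 : ℝ) 1 := fun {a b} a0 ab => by
    have b0 := a0.trans_le ab
    have h1 : a / b ≤ 1 := (div_le_one b0).2 ab
    have h2 : 0 < a / b := div_pos a0 b0
    constructor <;> nlinarith
  rw [int_sp b0, int_sp b0'] at e1
  rw [int_spi b0, int_spi b0'] at e2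
  have j := eJ_pos (mem a0 ab).2
  have j' := eJ_pos (mem a0' ab').2
  have f : ∀ {a b : ℝ}, 0 < a → a ≤ b → eF (1 - (a / b) ^ 2) =
      (a * b) ^ 2 * (b⁻¹ * eI (1 - (a / b) ^ 2)) ^ 3 / (b * eJ (1 - (a / b) ^ 2)) :=
    fun {a b} a0 ab => by
      have b0 := a0.trans_le ab
      have j := eJ_pos (mem a0 ab).2
      unfold eF
      field_simp
      ring
  have k := eF_anti.injOn (mem a0 ab) (mem a0' ab') (by rw [f a0 ab, f a0' ab', e1, e2])
  rw [← k] at e1
  have hb : b = b' := mul_right_cancel₀ j.ne' e1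
  subst hb
  refine ⟨?_, rfl⟩
  have : (a / b) ^ 2 = (a' / b) ^ 2 := by linarith
  have := (pow_left_inj₀ (div_pos a0 b0).le (div_pos a0' b0).le two_ne_zero).1 this
  field_simp at this
  exact this

/-- The perimeter `∫ h` and the invariant `(∫ κ^(2/3) ds)³ = (a b)² (∫ 1 / h)³` determine the half
axes of an ellipse. -/
theorem ell_inj {a b a' b' φ φ' : ℝ} (a0 : 0 < a) (b0 : 0 < b) (a0' : 0 < a') (b0' : 0 < b')
    (e1 : ∫ ψ in (0 : ℝ)..2 * π, sp a b φ ψ = ∫ ψ in (0 : ℝ)..2 * π, sp a' b' φ' ψ)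
    (e2 : (a * b) ^ 2 * (∫ ψ in (0 : ℝ)..2 * π, (sp a b φ ψ)⁻¹) ^ 3 =
      (a' * b') ^ 2 * (∫ ψ in (0 : ℝ)..2 * π, (sp a' b' φ' ψ)⁻¹) ^ 3) :
    (a = a' ∧ b = b') ∨ (a = b' ∧ b = a') := by
  rcases le_total a b with h | h <;> rcases le_total a' b' with h' | h'
  · exact Or.inl (ell_inj_le a0 h a0' h' e1 e2)
  · simp only [sp_swap a' b', mul_comm a' b'] at e1 e2
    exact Or.inr (ell_inj_le a0 h b0' h' e1 e2)
  · simp only [sp_swap a b, mul_comm a b] at e1 e2
    exact Or.inr (ell_inj_le b0 h a0' h' e1 e2).symm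
  · rw [funext (sp_swap a b φ), funext (sp_swap a' b' φ'), mul_comm a b, mul_comm a' b'] at *
    exact Or.inl (ell_inj_le b0 h b0' h' e1 e2).symm

end Vale.Agent.N097Y
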